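import Vale.Agent.P284Z.Final

/-!
# The abelianity conjecture of Campana for projective manifolds

Let `X` be a connected smooth complex projective variety of dimension `n` which is special in the sense
of Campana. Then `π₁(X)` has an abelian subgroup of finite index, generated by at most `2 n` elements.
-/

open scoped Manifold ContDiff
open Vale.Agent.P272.K Vale.Agent.P284.H248 Vale.Agent.P284.H894.F Vale.Agent.P300.Final

namespace Vale.Agent.Results.P284.AProjectiveAbelian

theorem result {n : ℕ} {X : Type} [TopologicalSpace X] [T2Space X] [CompactSpace X]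
    [ConnectedSpace X] [ChartedSpace (Cm n) X] [IsManifold 𝓘(ℂ, Cm n) ω X]
    (hX : IsSmoothProjective (Cm n) X) (hS : Special n X) (x : X) :
    VirtuallyAbelian (FundamentalGroup X x) ∧ VirtAbelianRank (FundamentalGroup X x) (2 * n) := by
  obtain ⟨A, h1, h2, h3⟩ := Vale.Agent.P284Z.proj hX hS x
  exact ⟨⟨A, h1, h2⟩, A, h1, h2, h3⟩

end Vale.Agent.Results.P284.AProjectiveAbelian
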